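import Vale.Agent.P021.R2.H691.Spec
import Vale.Agent.P021.R2.H542.WinConst

/-!
# The arithmetic lower bound for denominators divisible by a large power of 2
-/

set_option autoImplicit false

namespace Vale.Agent.P021.R2.H691

open Vale.Agent.P021.R2.H636 Vale.Agent.P021.R2.H542
open Filter Topology Finset

/-- **The arithmetic lower bound** from local bounds `n φ (l / n) + C0` at the odd primes and the
bound at the prime 2. -/
theorem arith_lower_genR (K0 b0 f0 E0 v0 : ℕ) {φ : ℝ → ℝ} {Λ C0 c2 : ℝ} (hφ0 : ∀ y, 0 ≤ φ y)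
    (hΛ : 0 ≤ Λ) (hLip : ∀ x y, |φ x - φ y| ≤ Λ * |x - y|) (hC0 : 0 ≤ C0)
    (hloc : ∀ n κ : ℕ, 0 < n → κ ≤ 2 → ∀ (p q : ℤ), 0 < q → ∀ l : ℕ, l.Prime → l ≠ 2 →
      rg (b0 * n) (f0 * n) (E0 * n) (K0 * n + κ) < l ^ 2 →
      ∃ e : ℕ, padicNorm l (NN (b0 * n) (f0 * n) (E0 * n) (K0 * n + κ) p q) ≤ (l : ℚ) ^ e ∧
        (e : ℝ) ≤ n * φ ((l : ℝ) / n) + C0)
    (hT : TwoBoundR K0 b0 f0 E0 v0 c2) :
    ArithLowerR K0 b0 f0 E0 v0 ((∫ y in (0 : ℝ)..XE K0 b0 f0 E0, φ y) + c2) := by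
  intro ε hε
  set X : ℝ := XE K0 b0 f0 E0 with hXdef
  have hX1 : 1 ≤ X := XE_pos K0 b0 f0 E0
  have hX0 : 0 < X := by linarith only [hX1]
  set η : ℝ := ε / (8 * (K0 + 2) * X) with hη
  have hη0 : 0 < η := by positivity
  have hη1 : 2 * ((K0 + 2) * (η * X)) = ε / 4 := by rw [hη]; field_simp; norm_num
  have hl2 : 0 < Real.log 2 := Real.log_pos (by norm_num)
  have hl4 : 0 < Real.log 4 := Real.log_pos (by norm_num)
  set B : ℝ := C0 * (Real.log 4 * X) + (K0 + 2) * Real.log 2 with hB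
  have hB0 : 0 ≤ B := by rw [hB]; positivity
  obtain ⟨N0, hN0⟩ := exists_nat_gt (4 * B / ε)
  filter_upwards [Det.psum_le_integral (φ := φ) hX0 hΛ hLip (by positivity : 0 < ε / 4),
    Det.sqrt_log_small hX0 hη0, hT (ε / 4) (by positivity),
    eventually_ge_atTop (N0 + 13)] with n hn1 hn2 hnT hn3 κ hκ p q hq hdvd hdet
  have hn13 : 13 ≤ n := by omega
  have hnR : (1 : ℝ) ≤ n := by
    have : 1 ≤ n := by omega
    exact_mod_cast this
  have hnB : B * n ≤ ε / 4 * n ^ 2 :=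
    Det.bn_le hε hN0 (by exact_mod_cast (by omega : N0 ≤ n)) hnR
  have hκR : (κ : ℝ) ≤ 2 := by exact_mod_cast hκ
  have hqR : (0 : ℝ) < q := by exact_mod_cast hq
  have hNN := NN_eq (b0 * n) (f0 * n) (E0 * n) (K0 * n + κ) p q hq
  have hNNR : ((NN (b0 * n) (f0 * n) (E0 * n) (K0 * n + κ) p q : ℚ) : ℝ) ≠ 0 := by
    rw [hNN]
    exact mul_ne_zero (pow_pos (by linarith only [hqR]) _).ne' hdet
  have hNN0 : NN (b0 * n) (f0 * n) (E0 * n) (K0 * n + κ) p q ≠ 0 := by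
    exact_mod_cast hNNR
  have h3 := log_NN_geE (fun l => n * φ ((l : ℝ) / n) + C0) _ _ _ _ _ p q hq
    (fun l => by have := hφ0 ((l : ℝ) / n); positivity)
    (fun l hl h7 hr => hloc n κ (by omega) hκ p q hq l hl h7 hr)
    (hnT κ hκ p q hq hdvd hNN0) hNN0
  have h4 := sum_phi_leE hφ0 hC0 K0 b0 f0 E0 n κ hn13 hκ
  have h7 := rg_le K0 b0 f0 E0 n κ hn13 hκ
  have hrng1 : (1 : ℝ) ≤ rg (b0 * n) (f0 * n) (E0 * n) (K0 * n + κ) := by
    have : 1 ≤ rg (b0 * n) (f0 * n) (E0 * n) (K0 * n + κ) := by unfold rg; omega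
    exact_mod_cast this
  rw [← hXdef] at h7 h4
  have h12 : ((K0 * n + κ : ℕ) : ℝ) ≤ (K0 + 2) * n := Det.kk_le hnR hκR
  have h8 : 2 * ((Real.sqrt (rg (b0 * n) (f0 * n) (E0 * n) (K0 * n + κ)) + 7) *
      (((K0 * n + κ : ℕ) : ℝ) * Real.log (rg (b0 * n) (f0 * n) (E0 * n) (K0 * n + κ)))) ≤
      ε / 4 * n ^ 2 := by
    have h13 := Det.mid_le hrng1 h7 (Nat.cast_nonneg (K0 * n + κ)) h12 hn2
    have h14 : 2 * (((K0 : ℝ) + 2) * n * (η * (X * n))) = (2 * ((K0 + 2) * (η * X))) * n ^ 2 := by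
      ring
    rw [hη1] at h14
    rw [← h14]
    linarith only [h13]
  have h9 : (n : ℝ) * Det.psum φ n X ≤
      (∫ y in (0 : ℝ)..X, φ y) * n ^ 2 + ε / 4 * n ^ 2 := by
    refine (mul_le_mul_of_nonneg_left hn1 (zero_le_one.trans hnR)).trans (le_of_eq ?_)
    ring
  have hlogeq := log_NN_eqE (b0 * n) (f0 * n) (E0 * n) (K0 * n + κ) p q hq hdet
  have hfin : -(((∫ y in (0 : ℝ)..X, φ y) + c2) + ε) * (n : ℝ) ^ 2 ≤
      Real.log ((q : ℝ) ^ (K0 * n + κ) *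
          |(HM ((p : ℝ) / q) (b0 * n) (f0 * n) (E0 * n) (K0 * n + κ)).det|) := by
    have e2 : C0 * (Real.log 4 * (X * n)) + ((K0 * n + κ : ℕ) : ℝ) * Real.log 2 ≤ B * n := by
      rw [hB]
      have := mul_le_mul_of_nonneg_right h12 hl2.le
      linarith only [this]
    rw [hlogeq] at h3
    linarith only [hnB, h3, h4, h8, h9, e2]
  exact (Real.le_log_iff_exp_le (mul_pos (pow_pos hqR _) (abs_pos.2 hdet))).1 hfin


/-- **T1a with the window.** -/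
theorem arithLower_winR (K0 b0 f0 E0 v0 : ℕ) {c2 : ℝ} (hT : TwoBoundR K0 b0 f0 E0 v0 c2)
    (hD : |4 * (E0 : ℝ) - 2 * K0 - b0 - f0| ≤ K0) (x0 x1 x2 x3 x4 x5 : ℝ) (h0 : 0 ≤ x0)
    (h01 : x0 ≤ x1) (h12 : x1 ≤ x2) (h23 : x2 ≤ x3) (h34 : x3 ≤ x4) (h45 : x4 ≤ x5)
    (h5 : x5 ≤ ((K0 : ℝ) + b0 + f0) / 2) :
    ArithLowerR K0 b0 f0 E0 v0 (cwinE K0 b0 f0 E0 x0 x1 x2 x3 x4 x5 + c2) := by
  have h1 := arith_lower_genR K0 b0 f0 E0 v0 (φ := phiW b0 f0 E0 K0)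
    (Λ := 10) (C0 := 100) (c2 := c2) (fun y => phiW_nonneg (Nat.cast_nonneg _)) (by norm_num)
    (fun x y => phiW_lip _ _ _ _ x y) (by norm_num)
    (fun n κ hn hκ p q hq l hl h2 hr => loc_phiW K0 b0 f0 E0 n κ hn hκ p q hq l hl h2 hr) hT
  have hK0 : (0 : ℝ) ≤ K0 := Nat.cast_nonneg _
  have hb0 : (0 : ℝ) ≤ b0 := Nat.cast_nonneg _
  have hf0 : (0 : ℝ) ≤ f0 := Nat.cast_nonneg _
  have hE0 : (0 : ℝ) ≤ E0 := Nat.cast_nonneg _
  have hc := continuous_phiW (b0 : ℝ) f0 E0 K0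
  have h2 : ∫ y in (0 : ℝ)..XE K0 b0 f0 E0, phiW b0 f0 E0 K0 y ≤
      cwinE K0 b0 f0 E0 x0 x1 x2 x3 x4 x5 := by
    have hsplit : ∫ y in (0 : ℝ)..XE K0 b0 f0 E0, phiW b0 f0 E0 K0 y =
        (∫ y in (0 : ℝ)..x0, phiW b0 f0 E0 K0 y) + (∫ y in x0..x1, phiW b0 f0 E0 K0 y) +
        (∫ y in x1..x2, phiW b0 f0 E0 K0 y) + (∫ y in x2..x3, phiW b0 f0 E0 K0 y) +
        (∫ y in x3..x4, phiW b0 f0 E0 K0 y) + (∫ y in x4..x5, phiW b0 f0 E0 K0 y) +
        ∫ y in x5..XE K0 b0 f0 E0, phiW b0 f0 E0 K0 y := by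
      rw [intervalIntegral.integral_add_adjacent_intervals, intervalIntegral.integral_add_adjacent_intervals,
        intervalIntegral.integral_add_adjacent_intervals, intervalIntegral.integral_add_adjacent_intervals,
        intervalIntegral.integral_add_adjacent_intervals, intervalIntegral.integral_add_adjacent_intervals] <;>
      exact hc.intervalIntegrable _ _
    have i0 := int_phiW_K (b0 : ℝ) f0 E0 K0 h0
    have i1 := int_phiW_win (b0 : ℝ) f0 E0 K0 h01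
    have i2 := int_phiW_win (b0 : ℝ) f0 E0 K0 h12
    have i3 := int_phiW_win (b0 : ℝ) f0 E0 K0 h23
    have i4 := int_phiW_win (b0 : ℝ) f0 E0 K0 h34
    have i5 := int_phiW_win (b0 : ℝ) f0 E0 K0 h45
    have i6 := int_phiW_plain hc (A := 2 * E0) (B := 2 * K0 + b0 + f0 - 2 * E0) (K := K0)
      (X := XE K0 b0 f0 E0) (a := x5) (fun y => by
        unfold phiW plainF
        exact min_le_min le_rfl (min_le_left _ _)) (by
        refine le_trans (le_of_eq ?_) hD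
        congr 1
        ring) (by linarith only [h5]) (by
        unfold XE
        linarith only [hK0, hb0, hf0, hE0]) (by
        unfold XE
        linarith only [hK0, hb0, hf0, hE0])
    rw [hsplit]
    unfold cwinE cplain
    linarith only [i0, i1, i2, i3, i4, i5, i6]
  intro ε hε
  filter_upwards [h1 ε hε] with n hn κ hκ p q hq hdvd hdet
  refine le_trans (Real.exp_le_exp.2 ?_) (hn κ hκ p q hq hdvd hdet)
  have h3 : (0 : ℝ) ≤ (n : ℝ) ^ 2 := by positivity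
  have h4 := mul_le_mul_of_nonneg_right h2 h3
  linarith only [h4]

end Vale.Agent.P021.R2.H691
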